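import Vale.Agent.P043.Defs

/-!
P043 (LiftPin): boxes and keys.

A box `[0,M)^d` per cell; key number `i` is two points on a line along axis `0`, at
distance `i + 1`, with all other coordinates equal to `2`.
-/

namespace Vale.Agent.P043.Lift

variable {d : ℕ}

/-- The spacing between keys. -/
def spc (K : ℕ) : ℤ := 4 * K + 4

/-- The side of the box. -/
def side (K : ℕ) : ℤ := spc K * ((K : ℤ) + 3)

lemma five_le_side (K : ℕ) : 5 ≤ side K := by
  unfold side spc
  nlinarith

/-- The box. -/
def InBox (K : ℕ) (r : Fin d → ℤ) : Prop := ∀ l, 0 ≤ r l ∧ r l < side K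

/-- Coordinate of a key point on axis `0`. -/
def px (K i : ℕ) (ε : Bool) : ℤ := spc K * ((i : ℤ) + 1) + if ε then (i : ℤ) + 1 else 0

/-- The two points of key number `i`. -/
def pt (a0 : Fin d) (K i : ℕ) (ε : Bool) : Fin d → ℤ :=
  fun l => if l = a0 then px K i ε else 2

lemma pt_self (a0 : Fin d) (K i : ℕ) (ε : Bool) : pt a0 K i ε a0 = px K i ε := if_pos rfl

lemma pt_other {a0 l : Fin d} (h : l ≠ a0) (K i : ℕ) (ε : Bool) : pt a0 K i ε l = 2 := if_neg h

lemma px_bounds {K i : ℕ} (hi : i < K) (ε : Bool) :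
    (K : ℤ) + 1 ≤ px K i ε ∧ px K i ε + ((K : ℤ) + 1) < side K := by
  have h1 : (i : ℤ) + 1 ≤ K := by exact_mod_cast hi
  have h0 : (0 : ℤ) ≤ i := Int.natCast_nonneg i
  have hs : spc K * 1 ≤ spc K * ((i : ℤ) + 1) :=
    mul_le_mul_of_nonneg_left (by omega) (by unfold spc; omega)
  have hb : spc K * ((i : ℤ) + 1) ≤ spc K * (K : ℤ) :=
    mul_le_mul_of_nonneg_left h1 (by unfold spc; omega)
  have hd : side K = spc K * (K : ℤ) + 3 * spc K := by unfold side; ring
  unfold px
  rw [hd]
  unfold spc at hs hb ⊢
  split <;> omega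

lemma spc_sep {K i j : ℕ} (hij : i < j) :
    spc K * ((i : ℤ) + 1) + spc K ≤ spc K * ((j : ℤ) + 1) := by
  have h : (i : ℤ) + 1 + 1 ≤ (j : ℤ) + 1 := by exact_mod_cast Nat.succ_le_succ hij
  have := mul_le_mul_of_nonneg_left h (show 0 ≤ spc K by unfold spc; omega)
  linarith

lemma px_inj {K i j : ℕ} (hi : i < K) (hj : j < K) {ε η : Bool} (h : px K i ε = px K j η) :
    i = j ∧ ε = η := by
  rcases Nat.lt_trichotomy i j with hij | rfl | hij
  · have := spc_sep (K := K) hij
    unfold px at h; unfold spc at this h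
    split at h <;> split at h <;> omega
  · refine ⟨rfl, ?_⟩
    unfold px at h
    cases ε <;> cases η <;> simp at h ⊢ <;> omega
  · have := spc_sep (K := K) hij
    unfold px at h; unfold spc at this h
    split at h <;> split at h <;> omega

/-- Two cavity points of the same box at a key distance are the two points of that key. -/
lemma px_match {K i j k : ℕ} (hi : i < K) (hj : j < K) (hk : k < K) {ε η θ : Bool}
    (h : px K j η = px K i ε + px K k (!θ) - px K k θ) : k = i ∧ θ = ε := by
  rcases Nat.lt_trichotomy i j with hij | rfl | hij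
  · have := spc_sep (K := K) hij
    unfold px at h; unfold spc at this h
    cases ε <;> cases η <;> cases θ <;> simp at h <;> omega
  · unfold px at h
    cases ε <;> cases η <;> cases θ <;> simp at h ⊢ <;> omega
  · have := spc_sep (K := K) hij
    unfold px at h; unfold spc at this h
    cases ε <;> cases η <;> cases θ <;> simp at h <;> omega

lemma inBox_pt (a0 : Fin d) {K i : ℕ} (hi : i < K) (ε : Bool) : InBox K (pt a0 K i ε) := by
  intro l
  have h := px_bounds hi ε
  have := five_le_side K
  unfold pt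
  split <;> omega

lemma pt_inj (a0 : Fin d) {K i j : ℕ} (hi : i < K) (hj : j < K) {ε η : Bool}
    (h : pt a0 K i ε = pt a0 K j η) : i = j ∧ ε = η :=
  px_inj hi hj (by simpa [pt_self] using congrFun h a0)

/-- Euclidean division by the side. -/
lemma div_unique {K : ℕ} {p q r s : Fin d → ℤ} (hr : InBox K r) (hs : InBox K s)
    (h : side K • p + r = side K • q + s) : p = q ∧ r = s := by
  have key : ∀ l, p l = q l ∧ r l = s l := by
    intro l
    have hl := congrFun h l
    simp only [Pi.add_apply, Pi.smul_apply, smul_eq_mul] at hl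
    obtain ⟨r0, r1⟩ := hr l
    obtain ⟨s0, s1⟩ := hs l
    have hpq : p l = q l := by
      rcases lt_trichotomy (p l) (q l) with hlt | heq | hgt
      · nlinarith
      · exact heq
      · nlinarith
    exact ⟨hpq, by rw [hpq] at hl; linarith⟩
  exact ⟨funext fun l => (key l).1, funext fun l => (key l).2⟩

lemma exists_div (K : ℕ) (z : Fin d → ℤ) :
    ∃ p r : Fin d → ℤ, InBox K r ∧ z = side K • p + r := by
  have hM : 0 < side K := lt_of_lt_of_le (by norm_num) (five_le_side K)
  refine ⟨fun l => z l / side K, fun l => z l % side K,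
    fun l => ⟨Int.emod_nonneg _ hM.ne', Int.emod_lt_of_pos _ hM⟩, funext fun l => ?_⟩
  simp only [Pi.add_apply, Pi.smul_apply, smul_eq_mul]
  exact (Int.mul_ediv_add_emod (z l) (side K)).symm

end Vale.Agent.P043.Lift
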